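import Vale.Agent.P089.BC.DefsA

/-! The canonical trace of one operator. -/

namespace Vale.Agent.P089.BC

open scoped InnerProductSpace

section

variable {G H : Type} [Group G] [NormedAddCommGroup H] [InnerProductSpace ℂ H]

/-- The canonical trace `⟨b_1, P b_1⟩` of `P` is an irrational real number. -/
def IrrationalAt [CompleteSpace H] (b : HilbertBasis G ℂ H) (P : H →L[ℂ] H) : Prop :=
  ∃ x : ℝ, Irrational x ∧ ⟪b 1, P (b 1)⟫_ℂ = x

end

end Vale.Agent.P089.BC
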