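import Vale.Agent.P089.Bdl.B3

/-!
# P089: the counterexample is finitely generated (helper981)

The group `Γ = N ⋊ G` of the construction is generated by the (finitely many) letters of `G` and the
finitely many classes of the functions supported at `1`; `N` is an elementary abelian `2`-group.
The proof of `opFinalFG` is the proof of `opFinal` with this information kept.
-/

set_option autoImplicit false

open scoped InnerProductSpace ComplexOrder Topology

namespace Vale.Agent.P089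

open Vale.Agent.P086 Filter Module Op

section

variable {q : ℕ} {F : Fam q} {K k : ℕ} (M : Monster F K) (C : Codes k F)

/-- the generators of `Γ` -/
def gens : Set (Gam M C) :=
  Set.range (fun a : Alph k q =>
    (SemidirectProduct.inl (Multiplicative.ofAdd (mkN M C (Finsupp.single 1 a))) : Gam M C)) ∪
  Set.range (fun a : Letter q => (SemidirectProduct.inr (M.s a) : Gam M C))

theorem gens_finite : (gens M C).Finite := (Set.finite_range _).union (Set.finite_range _)

theorem inr_mem (x : M.G) : (SemidirectProduct.inr x : Gam M C) ∈ Subgroup.closure (gens M C) := by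
  obtain ⟨w, rfl⟩ := M.gen x
  rw [map_list_prod]
  refine Subgroup.list_prod_mem _ fun y hy => ?_
  rw [List.map_map, List.mem_map] at hy
  obtain ⟨a, -, rfl⟩ := hy
  exact Subgroup.subset_closure (Or.inr ⟨a, rfl⟩)

theorem inl_mem (n : Multiplicative (NN M C)) :
    (SemidirectProduct.inl n : Gam M C) ∈ Subgroup.closure (gens M C) := by
  obtain ⟨f, hf⟩ := mkN_surj M C (Multiplicative.toAdd n)
  have hn : n = Multiplicative.ofAdd (mkN M C f) := by
    rw [hf]
    rfl
  subst hn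
  induction f using Finsupp.induction_linear with
  | zero =>
    have : (Multiplicative.ofAdd (mkN M C (0 : M.G →₀ Alph k q))) = 1 := rfl
    rw [this, map_one]
    exact Subgroup.one_mem _
  | add f g hf' hg' =>
    have : (Multiplicative.ofAdd (mkN M C (f + g))) =
        Multiplicative.ofAdd (mkN M C f) * Multiplicative.ofAdd (mkN M C g) := rfl
    rw [this, map_mul]
    exact Subgroup.mul_mem _ (hf' rfl) (hg' rfl)
  | single x a =>
    have h1 : Multiplicative.ofAdd (mkN M C (Finsupp.single x a)) =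
        actN M C x (Multiplicative.ofAdd (mkN M C (Finsupp.single 1 a))) := by
      change _ = Multiplicative.ofAdd (mkN M C (trF M x (Finsupp.single 1 a)))
      rw [trF_single, mul_one]
    rw [h1, SemidirectProduct.inl_aut]
    exact Subgroup.mul_mem _ (Subgroup.mul_mem _ (inr_mem M C x)
      (Subgroup.subset_closure (Or.inl ⟨a, rfl⟩))) (inr_mem M C x⁻¹)

/-- `Γ` is finitely generated -/
theorem Gam_fg : Group.FG (Gam M C) := by
  rw [Group.fg_iff]
  refine ⟨gens M C, ?_, gens_finite M C⟩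
  rw [eq_top_iff]
  intro γ _
  rw [← SemidirectProduct.inl_left_mul_inr_right γ]
  exact Subgroup.mul_mem _ (inl_mem M C _) (inr_mem M C _)

/-- `Γ` is the semidirect product of an elementary abelian `2`-group and a finitely generated
group -/
theorem Gam_split : ∃ V Q : Subgroup (Gam M C), V.Normal ∧ (∀ x ∈ V, x * x = 1) ∧ Q.FG ∧
    V ⊓ Q = ⊥ ∧ V ⊔ Q = ⊤ := by
  refine ⟨(SemidirectProduct.inl : Multiplicative (NN M C) →* Gam M C).range,
    (SemidirectProduct.inr : M.G →* Gam M C).range, ?_, ?_, ?_, ?_, ?_⟩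
  · rw [SemidirectProduct.range_inl_eq_ker_rightHom]
    infer_instance
  · rintro _ ⟨n, rfl⟩
    rw [← map_mul]
    have : n * n = 1 := by
      change Multiplicative.ofAdd (Multiplicative.toAdd n + Multiplicative.toAdd n) = 1
      rw [ZModModule.add_self]
      rfl
    rw [this, map_one]
  · have hG : Group.FG M.G := by
      rw [Group.fg_iff]
      refine ⟨Set.range M.s, ?_, Set.finite_range _⟩
      rw [eq_top_iff]
      intro x _
      obtain ⟨w, rfl⟩ := M.gen x
      refine Subgroup.list_prod_mem _ fun y hy => ?_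
      rw [List.mem_map] at hy
      obtain ⟨a, -, rfl⟩ := hy
      exact Subgroup.subset_closure ⟨a, rfl⟩
    exact (Group.fg_iff_subgroup_fg _).1 (Group.fg_range _)
  · rw [eq_bot_iff]
    rintro γ ⟨⟨n, hn⟩, x, hx⟩
    rw [Subgroup.mem_bot]
    have h1 : γ.right = 1 := by
      rw [← hn]
      rfl
    have h2 : γ.left = 1 := by
      rw [← hx]
      rfl
    exact SemidirectProduct.ext h2 h1
  · rw [eq_top_iff]
    intro γ _
    rw [← SemidirectProduct.inl_left_mul_inr_right γ]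
    exact Subgroup.mul_mem_sup ⟨_, rfl⟩ ⟨_, rfl⟩

end

/-- The construction for a given family: a finitely generated group `G`, a projection `P` in
`C*_r(G)` with trace `∑ 2^(-dim C_m)`, and the detecting functionals. -/
def OpData (x : ℝ) : Prop :=
  ∃ (G : Type) (_ : Group G), Countable G ∧ Group.FG G ∧
    (∃ V Q : Subgroup G, V.Normal ∧ (∀ x ∈ V, x * x = 1) ∧ Q.FG ∧ V ⊓ Q = ⊥ ∧ V ⊔ Q = ⊤) ∧
    ∃ P ∈ CstarR G, P * P = P ∧ IsSelfAdjoint P ∧ ent P 1 1 = x ∧
    ∃ (len : G → ℕ) (κ : ℝ), len 1 = 0 ∧ (∀ g h, len (g * h) ≤ len g + len h) ∧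
      ∀ L₀ : ℕ, ∃ L ≥ L₀, ∃ t : (L2 G →L[ℂ] L2 G) →L[ℂ] ℂ, ‖t‖ ≤ 2 ∧
        (∀ g h, t (lam (g * h)) = t (lam (h * g))) ∧ (∀ g, len g < L → t (lam g) = 0) ∧
        Real.exp (-κ * L) ≤ ‖t P‖

theorem famCon (hMon : MonsterStatement) (hInj : InjStatement)
    (hOrd : OrderStatement) (hKey : KeyStatement) (hGap : GapStatement)
    (hRes : RestrictStatement) (hSup : SupportStatement) (hAdm : AdmissibleStatement)
    {q k D c e d K : ℕ} {F : Fam q} {C' C : Codes k F} (hK : 20 ≤ K) (hqk : q ≤ k) (he : 0 < e)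
    (hd : 0 < d) (hC : F.Coloured K) (hE : F.Expander D c e) (hS : F.SmallSets K (8 * d))
    (hle : ∀ m, C' m ≤ C m) (hpat : ∀ m, F.pat k m ∈ C' m)
    (hfin : ∀ m, Module.finrank (ZMod 2) (C m) = Module.finrank (ZMod 2) (C' m) + 1)
    (honto : ∀ m, CodeOnto d (C' m)) (hdist : ∀ m, CodeDist e (C m))
    (hub : ∀ m, Module.finrank (ZMod 2) (C m) ≤ 3 * F.n m)
    (hlb : ∀ m, 2 * F.n m ≤ Module.finrank (ZMod 2) (C' m))
    (hgr : ∀ m, m + 4 * F.n m ≤ F.n (m + 1)) :
    OpData (∑' m, (1 / 2 : ℝ) ^ finrank (ZMod 2) (C m)) := by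
  classical
  obtain ⟨M⟩ := hMon q F K D c e (by omega) hC hE
  obtain ⟨hinj, hsinj, hsne, -⟩ := hInj q F K D c e M hK hC hE
  have hord := hOrd q F K D c e M hK hC hE
  have hn0 : ∀ m, 0 < F.n m := fun m => by have := hE.two m; omega
  have hmono : StrictMono F.n := strictMono_nat_of_lt_succ fun m => by
    have h1 := hgr m
    have h2 := hn0 m
    omega
  have hontoC : ∀ m, CodeOnto d (C m) := by
    intro m B hB f
    obtain ⟨v, hv, hvf⟩ := honto m B hB f
    exact ⟨v, hle m hv, hvf⟩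
  have hpatC : ∀ m, F.pat k m ∈ C m := fun m => hle m (hpat m)
  obtain ⟨hs1, hs2⟩ := hRes q F K M k d C hd hinj hord hS hn0 hontoC
  obtain ⟨ε, B, hfd⟩ := exists_fibData hKey hGap hAdm (D := D) he hqk
  obtain ⟨T, P, hD⟩ := hfd M C hK hC hE hdist hpatC hinj hsinj hsne
  obtain ⟨Q, hQmem, hQQ, hQs, hQlim⟩ := hD.exists_Q hs1
  have hr0 : Tendsto (fun j : ℕ => (1 - ε) ^ j) atTop (𝓝 0) :=
    tendsto_pow_atTop_nhds_zero_of_lt_one (by linarith only [hD.eps_le]) (by linarith only [hD.eps_pos])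
  have hperf : ∀ (χ : NN M C →+ ZMod 2) m h,
      M.Perfect (fun x => decode (conf M C χ x)) m h ↔
        ∀ y, conf M C χ (h * M.pos m y) = F.pat k m y := by
    intro χ m h
    exact forall_congr' fun y => decode_pat_iff hqk F m y _
  set w : (NN M C →+ ZMod 2) → ℂ := fun χ => P (conf M C χ) (dl 1) 1 with hw
  have hw1 : ∀ (χ : NN M C →+ ZMod 2) m h y, (1 : M.G) = h * M.pos m y →
      M.Perfect (fun x => decode (conf M C χ x)) m h → w χ = (F.n m : ℂ)⁻¹ := by
    intro χ m h y hy hp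
    rw [hw, ← one_div]
    exact hD.perfect _ (hs1 _ (conf_mem M C χ)) m h y hy ((hperf χ m h).1 hp)
  have hw0 : ∀ χ : NN M C →+ ZMod 2, (∀ m h y, (1 : M.G) = h * M.pos m y →
      ¬ M.Perfect (fun x => decode (conf M C χ x)) m h) → w χ = 0 := by
    intro χ hp
    exact hD.imperfect _ (hs1 _ (conf_mem M C χ)) fun m h y hy hp' =>
      hp m h y hy ((hperf χ m h).2 hp')
  have hst : ∀ (χ : NN M C →+ ZMod 2) (j : ℕ),
      ‖⟪dl (1 : M.G), fibA (actN M C) χ (elB M C B ^ j) (dl 1)⟫_ℂ - w χ‖ ≤ (1 - ε) ^ j :=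
    fun χ j => hD.state_le hs1 χ j
  -- dimensions
  have hd1 : ∀ m, finrank (ZMod 2) (C m) + m + 1 ≤ finrank (ZMod 2) (C (m + 1)) := by
    intro m
    have h1 := hub m
    have h2 := hlb (m + 1)
    have h3 := hfin (m + 1)
    have h4 := hgr m
    omega
  have hdm : ∀ m, m ≤ finrank (ZMod 2) (C m) := by
    intro m
    induction m with
    | zero => exact Nat.zero_le _
    | succ m ih =>
      have h1 := hd1 m
      omega
  refine ⟨Gam M C, inferInstance, countable_Gam M C, Gam_fg M C, Gam_split M C, Q,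
    mem_CrG.1 hQmem, hQQ, hQs,
    ?_,
    lenG M C, ((4 * d * (k + q) : ℕ) : ℝ), lenG_one M C, lenG_mul M C, ?_⟩
  · have h1 := trace_conf_real M hqk (by omega) hC hE hmono hpatC hs1 hs2 hdm
      (fun j => elB M C B ^ j) Q hQlim w _ hr0 hst hw1 hw0
    rw [← h1, trc, inner_dl]
    rfl
  · intro L₀
    -- choose the type
    obtain ⟨m₁, hm₁⟩ : ∃ m₁, 2 * d * (L₀ + 1) ≤ F.n m₁ :=
      ⟨2 * d * (L₀ + 1), hmono.le_apply⟩
    have hL : L₀ ≤ F.n m₁ / (2 * d) := by
      rw [Nat.le_div_iff_mul_le (by omega)]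
      nlinarith only [hm₁]
    have h2d : 2 * d ≤ F.n m₁ := by nlinarith only [hm₁]
    refine ⟨F.n m₁ / (2 * d), hL, ?_⟩
    set C₁ : Codes k F := fun m => if m = m₁ then C' m else C m with hC₁
    have hC₁m : C₁ m₁ = C' m₁ := by simp [hC₁]
    have hC₁n : ∀ m, m ≠ m₁ → C₁ m = C m := fun m hm => by simp [hC₁, hm]
    have hC₁le : ∀ m, C₁ m ≤ C m := by
      intro m
      by_cases hm : m = m₁
      · rw [hm, hC₁m]; exact hle m₁
      · rw [hC₁n m hm]
    have hpat₁ : ∀ m, F.pat k m ∈ C₁ m := by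
      intro m
      by_cases hm : m = m₁
      · rw [hm, hC₁m]; exact hpat m₁
      · rw [hC₁n m hm]; exact hpatC m
    have honto₁ : ∀ m, CodeOnto d (C₁ m) := by
      intro m
      by_cases hm : m = m₁
      · rw [hm, hC₁m]; exact honto m₁
      · rw [hC₁n m hm]; exact hontoC m
    obtain ⟨hr1, hr2⟩ := hRes q F K M k d C₁ hd hinj hord hS hn0 honto₁
    have hsup := hSup q F K M k d C₁ C m₁ hd hinj hord hS hn0 honto₁ hC₁le hC₁n
    have hnorm := Nsub_normal M C C₁
    obtain ⟨τ, hτn, hτ1, hτ0⟩ := exists_tau (Nsub M C C₁) (Nsub_locFin M C C₁)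
    obtain ⟨t, htn, ht1, ht0, htc⟩ := exists_trdiff (Nsub M C C₁) (Nsub_locFin M C C₁)
    refine ⟨t, htn, htc, fun g hg => t_lam_eq_zero M hC₁le (F.n m₁) d hsup t ht0 g hg, ?_⟩
    have h1 := trdiff_conf M hqk (by omega) hC hE hmono hC₁le m₁ hC₁n hpat₁ hr1 hr2 hs1 hs2
      τ tau0 (isTr_of_Nsub τ hτ1 hτ0) isTr_tau0 (fun j => elB M C B ^ j) Q hQlim w _ hr0 hst
      hw1 hw0
    have h2 : t Q = τ Q - tau0 Q := by
      have h3 := eq_of_lam_eq t (τ - (tau0 : (L2 (Gam M C) →L[ℂ] L2 (Gam M C)) →L[ℂ] ℂ))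
        (fun γ => ?_) (fun j => elB M C B ^ j) Q hQlim
      · rw [h3, sub_apply]
      rw [sub_apply, tau0_lam]
      by_cases hγ1 : γ = 1
      · rw [if_pos hγ1, ht0 γ (Or.inr hγ1), hγ1, hτ1 1 (Subgroup.one_mem _), sub_self]
      · by_cases hγ : γ ∈ Nsub M C C₁
        · rw [if_neg hγ1, ht1 γ hγ hγ1, hτ1 γ hγ, sub_zero]
        · rw [if_neg hγ1, ht0 γ (Or.inl hγ), hτ0 γ hγ, sub_zero]
    rw [hC₁m] at h1
    exact exp_le_norm_diff (C m₁) (C' m₁) d hd h2d (hfin m₁) (t Q) (h2.trans h1)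

theorem finrank_gap {q k : ℕ} {F : Fam q} {C' C : Codes k F}
    (hfin : ∀ m, Module.finrank (ZMod 2) (C m) = Module.finrank (ZMod 2) (C' m) + 1)
    (hub : ∀ m, Module.finrank (ZMod 2) (C m) ≤ 3 * F.n m)
    (hlb : ∀ m, 2 * F.n m ≤ Module.finrank (ZMod 2) (C' m))
    (hgr : ∀ m, m + 4 * F.n m ≤ F.n (m + 1)) (m : ℕ) :
    finrank (ZMod 2) (C m) + m + 1 ≤ finrank (ZMod 2) (C (m + 1)) := by
  have h1 := hub m
  have h2 := hlb (m + 1)
  have h3 := hfin (m + 1)
  have h4 := hgr m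
  omega

/-- the data for every family satisfying the clauses of `FamilyStatement` -/
theorem opData_of_family
    {q k D c e d K : ℕ} {F : Fam q} {C' C : Codes k F} (hK : 20 ≤ K) (hqk : q ≤ k) (he : 0 < e)
    (hd : 0 < d) (hC : F.Coloured K) (hE : F.Expander D c e) (hS : F.SmallSets K (8 * d))
    (hle : ∀ m, C' m ≤ C m) (hpat : ∀ m, F.pat k m ∈ C' m)
    (hfin : ∀ m, Module.finrank (ZMod 2) (C m) = Module.finrank (ZMod 2) (C' m) + 1)
    (honto : ∀ m, CodeOnto d (C' m)) (hdist : ∀ m, CodeDist e (C m))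
    (hub : ∀ m, Module.finrank (ZMod 2) (C m) ≤ 3 * F.n m)
    (hlb : ∀ m, 2 * F.n m ≤ Module.finrank (ZMod 2) (C' m))
    (hgr : ∀ m, m + 4 * F.n m ≤ F.n (m + 1)) :
    OpData (∑' m, (1 / 2 : ℝ) ^ finrank (ZMod 2) (C m)) :=
  famCon (monster glStatement) injStatement
    orderStatement (keyStatement injStatement orderStatement) gapStatement
    Conf.restrictStatement Conf.supportStatement admissibleStatement hK hqk he hd hC hE hS hle
    hpat hfin honto hdist hub hlb hgr

/-- at least one irrational trace -/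
theorem opConclusionFG : ∃ x : ℝ, Irrational x ∧ OpData x := by
  obtain ⟨q, k, D, c, e, d, K, F, C', C, hK, hqk, he, hd, hC, hE, hS, hle, hpat, hfin, honto,
    hdist, hub, hlb, hgr⟩ := family expanderStatement colourStatement
  exact ⟨_, irrational_tsum_half_pow (fun m => finrank (ZMod 2) (C m))
    (finrank_gap hfin hub hlb hgr), opData_of_family hK hqk he hd hC hE hS hle
    hpat hfin honto hdist hub hlb hgr⟩

end Vale.Agent.P089
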