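import Vale.Agent.P089.H499.Ind

/-!
# P089: extensions with finite kernel (helper981)

`π : Γ →* G` surjective with finite kernel. `VV : ℓ²(G) → ℓ²(Γ)` is the isometry
`ξ ↦ |ker π|^{-1/2} ξ ∘ π`; `dn T = V* T V` sends `λ_γ` to `λ_{π γ}`, and `up S = V S V*` maps
`C*_r(G)` into `C*_r(Γ)`, `dn (up S) = S`.
-/

set_option autoImplicit false

namespace Vale.Agent.P089.Ker

open Vale.Agent.P089.Asm Vale.Agent.P086 Vale.Agent.P089.Ind

section

variable {G Γ : Type} [Group G] [Group Γ] (π : Γ →* G) (hπ : Function.Surjective π)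

/-- a set-theoretic section -/
noncomputable def sec (g : G) : Γ := (hπ g).choose

theorem sec_spec (g : G) : π (sec π hπ g) = g := (hπ g).choose_spec

/-- the point `c * s(g)` of the fibre of `g` -/
noncomputable def pnt (c : π.ker) (g : G) : Γ := (c : Γ) * sec π hπ g

theorem map_pnt (c : π.ker) (g : G) : π (pnt π hπ c g) = g := by
  rw [pnt, map_mul, sec_spec, (MonoidHom.mem_ker).1 c.2, one_mul]

theorem pnt_inj (c : π.ker) : Function.Injective (pnt π hπ c) := by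
  intro g g' h
  rw [← map_pnt π hπ c g, h, map_pnt]

theorem pnt_eq {c c' : π.ker} {g g' : G} (h : pnt π hπ c g = pnt π hπ c' g') : c = c' := by
  have h1 : g = g' := by rw [← map_pnt π hπ c g, h, map_pnt]
  subst h1
  exact Subtype.ext (mul_right_cancel h)

theorem exists_pnt (γ : Γ) : ∃ c : π.ker, γ = pnt π hπ c (π γ) := by
  refine ⟨⟨γ * (sec π hπ (π γ))⁻¹, ?_⟩, ?_⟩
  · rw [MonoidHom.mem_ker, map_mul, map_inv, sec_spec, mul_inv_cancel]
  · rw [pnt, inv_mul_cancel_right]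

variable [Fintype π.ker]

/-- order of the kernel -/
noncomputable def kn : ℝ := (Fintype.card π.ker : ℝ)

theorem kn_pos : 0 < kn π := by
  unfold kn
  exact_mod_cast Fintype.card_pos

/-- the sum of the translates: `ξ ↦ ξ ∘ π` -/
noncomputable def WW : L2 G →L[ℂ] L2 Γ := ∑ c : π.ker, pushL2 (pnt π hπ c) (pnt_inj π hπ c)

theorem coe_sum {I J : Type} (s : Finset J) (f : J → L2 I) (i : I) :
    ((∑ j ∈ s, f j : L2 I) : I → ℂ) i = ∑ j ∈ s, (f j : I → ℂ) i := by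
  classical
  induction s using Finset.induction_on with
  | empty => rfl
  | insert a s ha ih =>
    rw [Finset.sum_insert ha, Finset.sum_insert ha, ← ih]
    rfl

theorem WW_apply (ξ : L2 G) (γ : Γ) : (WW π hπ ξ : Γ → ℂ) γ = (ξ : G → ℂ) (π γ) := by
  classical
  rw [WW, sum_apply, coe_sum]
  obtain ⟨c, hc⟩ := exists_pnt π hπ γ
  rw [Finset.sum_eq_single c]
  · conv_lhs => rw [hc]
    rw [pushL2_apply]
  · intro c' _ hc'
    refine pushL2_apply_not_mem _ _ ?_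
    rintro ⟨g, hg⟩
    rw [hc] at hg
    exact hc' (pnt_eq π hπ hg)
  · exact fun h => absurd (Finset.mem_univ c) h

theorem WW_adj_apply (η : L2 Γ) (g : G) :
    (ContinuousLinearMap.adjoint (WW π hπ) η : G → ℂ) g =
      ∑ c : π.ker, (η : Γ → ℂ) (pnt π hπ c g) := by
  have h : ContinuousLinearMap.adjoint (WW π hπ) =
      ∑ c : π.ker, ContinuousLinearMap.adjoint (pushL2 (pnt π hπ c) (pnt_inj π hπ c)) := by
    rw [WW, map_sum]
  rw [h, sum_apply, coe_sum]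
  exact Finset.sum_congr rfl fun c _ => adjoint_pushL2_apply _ _ _

theorem WW_adj_WW (ξ : L2 G) :
    ContinuousLinearMap.adjoint (WW π hπ) (WW π hπ ξ) = ((kn π : ℝ) : ℂ) • ξ := by
  apply lp.ext
  funext g
  rw [WW_adj_apply]
  have h1 : ∀ c : π.ker, (WW π hπ ξ : Γ → ℂ) (pnt π hπ c g) = (ξ : G → ℂ) g := by
    intro c
    rw [WW_apply, map_pnt]
  rw [Finset.sum_congr rfl fun c _ => h1 c, Finset.sum_const, Finset.card_univ, nsmul_eq_mul]
  change _ = ((kn π : ℝ) : ℂ) * (ξ : G → ℂ) g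
  rw [kn]
  push_cast
  rfl

theorem WW_norm_sq (ξ : L2 G) : ‖WW π hπ ξ‖ ^ 2 = kn π * ‖ξ‖ ^ 2 := by
  have h1 : (inner ℂ (WW π hπ ξ) (WW π hπ ξ) : ℂ) = inner ℂ ξ (((kn π : ℝ) : ℂ) • ξ) := by
    rw [← WW_adj_WW π hπ ξ, ContinuousLinearMap.adjoint_inner_right]
  rw [inner_smul_right, inner_self_eq_norm_sq_to_K, inner_self_eq_norm_sq_to_K] at h1
  have h2 : ((‖WW π hπ ξ‖ ^ 2 : ℝ) : ℂ) = ((kn π * ‖ξ‖ ^ 2 : ℝ) : ℂ) := by
    push_cast
    exact h1
  exact_mod_cast h2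

theorem lam_WW (γ : Γ) (ξ : L2 G) : lam γ (WW π hπ ξ) = WW π hπ (lam (π γ) ξ) := by
  apply lp.ext
  funext δ
  rw [lam_apply, WW_apply, WW_apply, lam_apply, map_mul, map_inv]

theorem WW_WW_adj (η : L2 Γ) :
    WW π hπ (ContinuousLinearMap.adjoint (WW π hπ) η) = ∑ f : π.ker, lam (f : Γ) η := by
  apply lp.ext
  funext δ
  rw [WW_apply, WW_adj_apply, coe_sum]
  obtain ⟨c₀, hc₀⟩ := exists_pnt π hπ δ
  have h1 : ∀ f : π.ker, (lam (f : Γ) η : Γ → ℂ) δ = (η : Γ → ℂ) ((f : Γ)⁻¹ * δ) := fun f => by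
    rw [lam_apply]
  rw [Finset.sum_congr rfl fun f _ => h1 f]
  refine Fintype.sum_equiv ((Equiv.inv π.ker).trans (Equiv.mulLeft c₀)) _ _ fun c => ?_
  refine congrArg (η : Γ → ℂ) ?_
  change pnt π hπ c (π δ) = ((c₀ * c⁻¹ : π.ker) : Γ)⁻¹ * δ
  conv_rhs => rw [hc₀]
  rw [pnt, pnt]
  push_cast
  group

/-- `T ↦ W* T W` -/
noncomputable def dn0 (T : L2 Γ →L[ℂ] L2 Γ) : L2 G →L[ℂ] L2 G :=
  ContinuousLinearMap.adjoint (WW π hπ) ∘L T ∘L WW π hπ

/-- `S ↦ W S W*` -/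
noncomputable def up0 (S : L2 G →L[ℂ] L2 G) : L2 Γ →L[ℂ] L2 Γ :=
  WW π hπ ∘L S ∘L ContinuousLinearMap.adjoint (WW π hπ)

theorem norm_WW : ‖WW π hπ‖ ≤ Real.sqrt (kn π) := by
  refine ContinuousLinearMap.opNorm_le_bound _ (Real.sqrt_nonneg _) fun ξ => ?_
  have h := WW_norm_sq π hπ ξ
  have h1 : ‖WW π hπ ξ‖ ^ 2 = (Real.sqrt (kn π) * ‖ξ‖) ^ 2 := by
    rw [h, mul_pow, Real.sq_sqrt (kn_pos π).le]
  exact ((sq_eq_sq₀ (norm_nonneg _) (by positivity)).1 h1).le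

theorem norm_WW_adj : ‖ContinuousLinearMap.adjoint (WW π hπ)‖ ≤ Real.sqrt (kn π) := by
  rw [LinearIsometryEquiv.norm_map]
  exact norm_WW π hπ

theorem norm_dn0_le (T : L2 Γ →L[ℂ] L2 Γ) : ‖dn0 π hπ T‖ ≤ kn π * ‖T‖ := by
  unfold dn0
  refine (ContinuousLinearMap.opNorm_comp_le _ _).trans ?_
  refine (mul_le_mul_of_nonneg_left (ContinuousLinearMap.opNorm_comp_le _ _)
    (norm_nonneg _)).trans ?_
  have h1 := norm_WW π hπ
  have h2 := norm_WW_adj π hπ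
  have h3 : Real.sqrt (kn π) * Real.sqrt (kn π) = kn π := Real.mul_self_sqrt (kn_pos π).le
  have h4 := norm_nonneg T
  have h5 := norm_nonneg (WW π hπ)
  calc ‖ContinuousLinearMap.adjoint (WW π hπ)‖ * (‖T‖ * ‖WW π hπ‖)
      ≤ Real.sqrt (kn π) * (‖T‖ * Real.sqrt (kn π)) := by gcongr
    _ = (Real.sqrt (kn π) * Real.sqrt (kn π)) * ‖T‖ := by ring
    _ = kn π * ‖T‖ := by rw [h3]

/-- `T ↦ V* T V = |ker|⁻¹ W* T W` -/
noncomputable def dn : (L2 Γ →L[ℂ] L2 Γ) →L[ℂ] (L2 G →L[ℂ] L2 G) :=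
  LinearMap.mkContinuous
    { toFun := fun T => (((kn π)⁻¹ : ℝ) : ℂ) • dn0 π hπ T
      map_add' := fun S T => by
        rw [dn0, dn0, dn0, ContinuousLinearMap.add_comp, ContinuousLinearMap.comp_add, smul_add]
      map_smul' := fun z T => by
        rw [dn0, dn0, ContinuousLinearMap.smul_comp, ContinuousLinearMap.comp_smul,
          RingHom.id_apply, smul_comm] } 1
    fun T => by
      rw [one_mul]
      change ‖(((kn π)⁻¹ : ℝ) : ℂ) • dn0 π hπ T‖ ≤ ‖T‖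
      rw [norm_smul, Complex.norm_real, Real.norm_eq_abs, abs_of_pos (inv_pos.2 (kn_pos π))]
      have h := norm_dn0_le π hπ T
      rw [inv_mul_le_iff₀ (kn_pos π)]
      exact h

theorem dn_eq (T : L2 Γ →L[ℂ] L2 Γ) : dn π hπ T = (((kn π)⁻¹ : ℝ) : ℂ) • dn0 π hπ T := rfl

theorem norm_dn_le : ‖dn π hπ‖ ≤ 1 := LinearMap.mkContinuous_norm_le _ zero_le_one _

theorem knC : (((kn π)⁻¹ : ℝ) : ℂ) * ((kn π : ℝ) : ℂ) = 1 := by
  rw [← Complex.ofReal_mul, inv_mul_cancel₀ (kn_pos π).ne', Complex.ofReal_one]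

theorem dn_lam (γ : Γ) : dn π hπ (lam γ) = lam (π γ) := by
  ext1 ξ
  rw [dn_eq, smul_apply]
  change (((kn π)⁻¹ : ℝ) : ℂ) • ContinuousLinearMap.adjoint (WW π hπ) (lam γ (WW π hπ ξ)) = _
  rw [lam_WW, WW_adj_WW, smul_smul, knC, one_smul]

/-- `S ↦ V S V* = |ker|⁻¹ W S W*` -/
noncomputable def up : (L2 G →L[ℂ] L2 G) →L[ℂ] (L2 Γ →L[ℂ] L2 Γ) :=
  LinearMap.mkContinuous
    { toFun := fun S => (((kn π)⁻¹ : ℝ) : ℂ) • up0 π hπ S
      map_add' := fun S T => by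
        rw [up0, up0, up0, ContinuousLinearMap.add_comp, ContinuousLinearMap.comp_add, smul_add]
      map_smul' := fun z T => by
        rw [up0, up0, ContinuousLinearMap.smul_comp, ContinuousLinearMap.comp_smul,
          RingHom.id_apply, smul_comm] } 1
    fun S => by
      rw [one_mul]
      change ‖(((kn π)⁻¹ : ℝ) : ℂ) • up0 π hπ S‖ ≤ ‖S‖
      rw [norm_smul, Complex.norm_real, Real.norm_eq_abs, abs_of_pos (inv_pos.2 (kn_pos π)),
        inv_mul_le_iff₀ (kn_pos π)]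
      unfold up0
      refine (ContinuousLinearMap.opNorm_comp_le _ _).trans ?_
      refine (mul_le_mul_of_nonneg_left (ContinuousLinearMap.opNorm_comp_le _ _)
        (norm_nonneg _)).trans ?_
      have h1 := norm_WW π hπ
      have h2 := norm_WW_adj π hπ
      have h3 : Real.sqrt (kn π) * Real.sqrt (kn π) = kn π := Real.mul_self_sqrt (kn_pos π).le
      calc ‖WW π hπ‖ * (‖S‖ * ‖ContinuousLinearMap.adjoint (WW π hπ)‖)
          ≤ Real.sqrt (kn π) * (‖S‖ * Real.sqrt (kn π)) := by gcongr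
        _ = (Real.sqrt (kn π) * Real.sqrt (kn π)) * ‖S‖ := by ring
        _ = kn π * ‖S‖ := by rw [h3]

theorem up_eq (S : L2 G →L[ℂ] L2 G) : up π hπ S = (((kn π)⁻¹ : ℝ) : ℂ) • up0 π hπ S := rfl

theorem up_apply (S : L2 G →L[ℂ] L2 G) (η : L2 Γ) : up π hπ S η = (((kn π)⁻¹ : ℝ) : ℂ) •
    WW π hπ (S (ContinuousLinearMap.adjoint (WW π hπ) η)) := rfl

theorem up_mul (S T : L2 G →L[ℂ] L2 G) : up π hπ (S * T) = up π hπ S * up π hπ T := by
  ext1 η
  change _ = up π hπ S (up π hπ T η)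
  rw [up_apply, up_apply, up_apply, map_smul, WW_adj_WW, smul_smul, knC, one_smul]
  rfl

theorem up_star (S : L2 G →L[ℂ] L2 G) : up π hπ (star S) = star (up π hπ S) := by
  rw [up_eq, up_eq, star_smul, up0, up0, ContinuousLinearMap.star_eq_adjoint,
    ContinuousLinearMap.star_eq_adjoint, ContinuousLinearMap.adjoint_comp,
    ContinuousLinearMap.adjoint_comp, ContinuousLinearMap.adjoint_adjoint,
    ContinuousLinearMap.comp_assoc]
  congr 1
  exact (Complex.conj_ofReal _).symm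

theorem dn_up (S : L2 G →L[ℂ] L2 G) : dn π hπ (up π hπ S) = S := by
  ext1 ξ
  rw [dn_eq, smul_apply]
  change (((kn π)⁻¹ : ℝ) : ℂ) • ContinuousLinearMap.adjoint (WW π hπ) (up π hπ S (WW π hπ ξ)) = _
  rw [up_apply, WW_adj_WW, map_smul, map_smul, map_smul, map_smul, WW_adj_WW, smul_smul, smul_smul,
    smul_smul]
  have h : (((kn π)⁻¹ : ℝ) : ℂ) * (((kn π)⁻¹ : ℝ) : ℂ) * ((kn π : ℝ) : ℂ) * ((kn π : ℝ) : ℂ) =
      1 := by
    have h1 := knC π
    linear_combination ((((kn π)⁻¹ : ℝ) : ℂ) * ((kn π : ℝ) : ℂ) + 1) * h1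
  rw [h, one_smul]

theorem up_lam (γ : Γ) :
    up π hπ (lam (π γ)) = (((kn π)⁻¹ : ℝ) : ℂ) • ∑ f : π.ker, lam (γ * f) := by
  ext1 η
  rw [up_apply, ← lam_WW, WW_WW_adj, map_sum, smul_apply,
    sum_apply]
  congr 1
  refine Finset.sum_congr rfl fun f _ => ?_
  rw [lam_mul]
  rfl

theorem up_mem {P : L2 G →L[ℂ] L2 G} (hP : P ∈ CstarR G) : up π hπ P ∈ CstarR Γ := by
  refine map_mem_closure (up π hπ).continuous hP fun T hT => ?_
  have h : Submodule.span ℂ {T : L2 G →L[ℂ] L2 G | ∃ g, IsLam g T} ≤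
      (Submodule.span ℂ {T : L2 Γ →L[ℂ] L2 Γ | ∃ g, IsLam g T}).comap (up π hπ).toLinearMap := by
    rw [Submodule.span_le]
    rintro T ⟨g, hg⟩
    rw [isLam_iff] at hg
    subst hg
    obtain ⟨γ, rfl⟩ := hπ g
    change up π hπ (lam (π γ)) ∈ Submodule.span ℂ {T : L2 Γ →L[ℂ] L2 Γ | ∃ g, IsLam g T}
    rw [up_lam]
    refine Submodule.smul_mem _ _ (Submodule.sum_mem _ fun f _ => Submodule.subset_span ⟨γ * f, ?_⟩)
    rw [isLam_iff]
  exact h hT

theorem ent_up (P : L2 G →L[ℂ] L2 G) :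
    ent (up π hπ P) 1 1 = (((kn π)⁻¹ : ℝ) : ℂ) * ent P 1 1 := by
  classical
  rw [entx_eq, entx_eq, up_apply]
  change (((kn π)⁻¹ : ℝ) : ℂ) * (WW π hπ (P (ContinuousLinearMap.adjoint (WW π hπ)
    (lp.single 2 1 (1 : ℂ)))) : Γ → ℂ) 1 = _
  rw [WW_apply, map_one]
  have h : ContinuousLinearMap.adjoint (WW π hπ) (lp.single 2 1 (1 : ℂ)) =
      (lp.single 2 1 (1 : ℂ) : L2 G) := by
    apply lp.ext
    funext g
    rw [WW_adj_apply, lp.single_apply, Pi.single_apply]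
    have h1 : ∀ c : π.ker, ((lp.single 2 1 (1 : ℂ) : L2 Γ) : Γ → ℂ) (pnt π hπ c g) =
        if pnt π hπ c g = 1 then 1 else 0 := by
      intro c
      rw [lp.single_apply, Pi.single_apply]
    rw [Finset.sum_congr rfl fun c _ => h1 c]
    by_cases hg : g = 1
    · subst hg
      rw [if_pos rfl]
      obtain ⟨c, hc⟩ := exists_pnt π hπ 1
      rw [map_one] at hc
      rw [Finset.sum_eq_single c, if_pos hc.symm]
      · intro c' _ hc'
        rw [if_neg]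
        intro h2
        exact hc' (pnt_eq π hπ (h2.trans hc))
      · exact fun h2 => absurd (Finset.mem_univ c) h2
    · rw [if_neg hg]
      refine Finset.sum_eq_zero fun c _ => ?_
      rw [if_neg]
      intro h2
      apply hg
      rw [← map_pnt π hπ c g, h2, map_one]
  rw [h]

end

end Vale.Agent.P089.Ker
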