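import Vale.Agent.P089.H499.Main
import Vale.Agent.P089.H981.Ker
import Vale.Agent.P089.H981.Fg

/-!
# P089: a finitely generated counterexample, and all finite-kernel extensions of `G × N` (helper981)
-/

set_option autoImplicit false

namespace Vale.Agent.P089.BC

open scoped InnerProductSpace
open Vale.Agent.P089.Asm Vale.Agent.P089.Ind Vale.Agent.P089.Ker Vale.Agent.P086

/-- the data pass to extensions with finite kernel -/
theorem Detect.ker {G Γ : Type} [Group G] [Group Γ] {P : L2 G →L[ℂ] L2 G} {len : G → ℕ} {κ : ℝ}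
    (h : Detect P len κ) (π : Γ →* G) (hπ : Function.Surjective π) [Fintype π.ker] :
    Detect (up π hπ P) (fun γ => len (π γ)) κ := by
  obtain ⟨h1, h2, h3⟩ := h
  refine ⟨?_, fun g h => ?_, fun L₀ => ?_⟩
  · change len (π 1) = 0
    rw [map_one]
    exact h1
  · change len (π (g * h)) ≤ len (π g) + len (π h)
    rw [map_mul]
    exact h2 _ _
  · obtain ⟨L, hL, t, ht, htr, hlow, hbig⟩ := h3 L₀
    have hval : ∀ γ : Γ, (t.comp (dn π hπ)) (lam γ) = t (lam (π γ)) := fun γ => by
      rw [ContinuousLinearMap.comp_apply, dn_lam]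
    refine ⟨L, hL, t.comp (dn π hπ), ?_, fun γ δ => ?_, fun γ hγ => ?_, ?_⟩
    · refine (ContinuousLinearMap.opNorm_comp_le _ _).trans ?_
      have h4 := norm_dn_le π hπ
      calc ‖t‖ * ‖dn π hπ‖ ≤ 2 * 1 :=
            mul_le_mul ht h4 (ContinuousLinearMap.opNorm_nonneg _) (by norm_num)
        _ = 2 := by norm_num
    · rw [hval, hval, map_mul, map_mul]
      exact htr _ _
    · rw [hval]
      exact hlow _ hγ
    · rw [ContinuousLinearMap.comp_apply, dn_up]
      exact hbig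

/-- what is proved about a group `G`: the assembly map is not surjective in degree `0`, the
trace takes an irrational value, and the same for all extensions of `G × N` with finite kernel -/
def Good (G : Type) [Group G] : Prop :=
    ((∃ p : ℕ → G →₀ ℚ, IsPlacement p) ∧
      ∀ (H : Type) [NormedAddCommGroup H] [InnerProductSpace ℂ H] [CompleteSpace H]
        (E : Type) [NormedAddCommGroup E] [InnerProductSpace ℂ E] [CompleteSpace E]
        (b : HilbertBasis G ℂ H) (c : HilbertBasis (G × ℕ) ℂ E),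
        (∀ p : ℕ → G →₀ ℚ, IsPlacement p → ¬ AssemblySurjective b c p) ∧ IrrationalTrace b) ∧
    (∀ (N : Type) [Group N] [Countable N] (Γ : Type) [Group Γ] (π : Γ →* G × N),
      Function.Surjective π → Finite π.ker → (∃ p : ℕ → Γ →₀ ℚ, IsPlacement p) ∧
      ∀ (H : Type) [NormedAddCommGroup H] [InnerProductSpace ℂ H] [CompleteSpace H]
        (E : Type) [NormedAddCommGroup E] [InnerProductSpace ℂ E] [CompleteSpace E]
        (b : HilbertBasis Γ ℂ H) (c : HilbertBasis (Γ × ℕ) ℂ E),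
        ∃ P ∈ CstarR b, P * P = P ∧ IsSelfAdjoint P ∧
          (∃ x : ℝ, Irrational x ∧ ⟪b 1, P (b 1)⟫_ℂ = x) ∧
          ∀ p : ℕ → Γ →₀ ℚ, IsPlacement p → ∀ m : ℕ, 1 ≤ m →
            ¬ InImage b c p (Matrix.diagonal fun _ : Fin m => P))

/-- the theorem for one family -/
theorem good_of_opData {x : ℝ} (hx : Irrational x) (h : Vale.Agent.P089.OpData x) :
    ∃ (G : Type) (_ : Group G), Countable G ∧ Group.FG G ∧
    (∃ V Q : Subgroup G, V.Normal ∧ (∀ x ∈ V, x * x = 1) ∧ Q.FG ∧ V ⊓ Q = ⊥ ∧ V ⊔ Q = ⊤) ∧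
    Good G ∧
    ∃ P ∈ Vale.Agent.P089.CstarR G, P * P = P ∧ IsSelfAdjoint P ∧ ent P 1 1 = x := by
  obtain ⟨G, hG, hc, hfg, hsp, P, hP, hPP, hPs, hx1, len, κ, h1, h2, h3⟩ := h
  have hD : Detect P len κ := ⟨h1, h2, h3⟩
  refine ⟨G, hG, hc, hfg, hsp, ⟨⟨Vale.Agent.P089.exists_placement _, ?_⟩,
    fun N _ _ Γ _ π hπ hfin => ?_⟩, P, hP, hPP, hPs, hx1⟩
  · intro H _ _ _ E _ _ _ b c
    refine ⟨fun p hp hsurj => hD.not_inImage hP hPP b c hp 1 le_rfl
      (hsurj 1 _ (fun j k => ?_) ?_), irrationalTrace_of b hP hPP hPs ⟨x, hx, hx1⟩⟩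
    · rw [Subsingleton.elim j k, Matrix.diagonal_apply_eq]
      exact toH_mem b hP
    · rw [Matrix.diagonal_mul_diagonal]
      simp only [← map_mul, hPP]
  · have hfin' : Fintype π.ker := Fintype.ofFinite _
    have hcΓ : Countable Γ := by
      have h4 : Function.Injective fun γ : Γ => ((exists_pnt π hπ γ).choose, π γ) := by
        intro γ γ' h
        have h5 := (exists_pnt π hπ γ).choose_spec
        have h6 := (exists_pnt π hπ γ').choose_spec
        obtain ⟨h7, h8⟩ := Prod.mk.inj h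
        rw [h5, h6, h7, h8]
      exact h4.countable
    refine ⟨Vale.Agent.P089.exists_placement _, ?_⟩
    intro H _ _ _ E _ _ _ b c
    have hι : Function.Injective (MonoidHom.inl G N) := fun a a' h => congrArg Prod.fst h
    obtain ⟨Q, hQ, hQQ, hQs, hQP⟩ := exists_ind (MonoidHom.inl G N) hι hP hPP hPs
    have hR := up_mem π hπ hQ
    have hRR : up π hπ Q * up π hπ Q = up π hπ Q := by rw [← up_mul, hQQ]
    have hRs : IsSelfAdjoint (up π hπ Q) := by
      change star (up π hπ Q) = up π hπ Q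
      rw [← up_star, hQs.star_eq]
    refine ⟨toH b (up π hπ Q), toH_mem b hR, by rw [← map_mul, hRR], hRs.map (toH b),
      ⟨(kn π)⁻¹ * x, ?_, ?_⟩,
      fun p hp m hm => ((hD.prod hι hQP).ker π hπ).not_inImage hR hRR b c hp m hm⟩
    · have e : (kn π)⁻¹ * x = (((Fintype.card π.ker : ℚ)⁻¹ : ℚ) : ℝ) * x := by
        rw [kn]
        push_cast
        rfl
      rw [e]
      exact hx.ratCast_mul (inv_ne_zero (by exact_mod_cast Fintype.card_ne_zero))
    · have h9 : ent Q 1 1 = x := by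
        rw [← hx1, ← hQP, ent_cpr, map_one]
      rw [inner_toH, ent_up, h9]
      push_cast
      rfl

/-- one finitely generated counterexample -/
theorem final_fg : ∃ (G : Type) (_ : Group G), Countable G ∧ Group.FG G ∧
    (∃ V Q : Subgroup G, V.Normal ∧ (∀ x ∈ V, x * x = 1) ∧ Q.FG ∧ V ⊓ Q = ⊥ ∧ V ⊔ Q = ⊤) ∧
    Good G := by
  obtain ⟨x, hx, h⟩ := Vale.Agent.P089.opConclusionFG
  obtain ⟨G, hG, h1, h2, h3, h4, -⟩ := good_of_opData hx h
  exact ⟨G, hG, h1, h2, h3, h4⟩

end Vale.Agent.P089.BC
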